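import Vale.Agent.P225.Path.Metric
import Vale.Agent.P225.Stage.Gauge
import Vale.Agent.P225.Riccati.Stage

/-!
P225, module F (helper file): the link operator of one stage on a block is a multiple of the free
one plus the control, up to second order.
-/

noncomputable section

namespace Vale.Agent.P225.StageNear

open Matrix SU2 Set
open scoped ComplexOrder Kronecker Matrix.Norms.L2Operator

theorem linkOp_add (A B : LinkMat) (q : ℕ × ℕ) :
    linkOp (A + B) q = linkOp A q + linkOp B q := by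
  simp only [linkOp, Matrix.add_apply, Complex.ofReal_add, add_smul, Finset.sum_add_distrib, neg_add]

theorem linkOp_smul (c : ℝ) (A : LinkMat) (q : ℕ × ℕ) :
    linkOp (c • A) q = (c : ℂ) • linkOp A q := by
  simp only [linkOp, Matrix.smul_apply, smul_eq_mul, Complex.ofReal_mul, mul_smul, smul_neg,
    Finset.smul_sum]

theorem linkOp_sum {ι : Type*} (s : Finset ι) (A : ι → LinkMat) (q : ℕ × ℕ) :
    linkOp (∑ k ∈ s, A k) q = ∑ k ∈ s, linkOp (A k) q := by
  classical
  induction s using Finset.induction with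
  | empty => simp [linkOp]
  | insert a s ha ih => rw [Finset.sum_insert ha, Finset.sum_insert ha, linkOp_add, ih]

theorem opS_comm_opT (q : ℕ × ℕ) (i k : Fin 3) : opT q k * opS q i = opS q i * opT q k := by
  simp only [opS, opT, ← Matrix.mul_kronecker_mul, Matrix.one_mul, Matrix.mul_one]

theorem linkOp_ctrlDir (ik : Fin 3 × Fin 3) (q : ℕ × ℕ) :
    linkOp (ctrlDir ik) q = (-2 : ℂ) • (opS q ik.1 * opT q ik.2) := by
  obtain ⟨a, b⟩ := ik
  simp only [linkOp, ctrlDir, Fintype.sum_prod_type, Fintype.sum_bool, Prod.mk.injEq,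
    apply_ite ((↑) : ℝ → ℂ), Complex.ofReal_one, Complex.ofReal_zero, ite_smul, one_smul, zero_smul]
  simp [ite_and, opX, opS_comm_opT]
  module

theorem opS_zero (q : ℕ × ℕ) (h : q.1 = 0) (i : Fin 3) : opS q i = 0 := by
  have : gen q.1 i = 0 := by
    rw [← gen_bracket]
    have : Subsingleton (Fin (q.1 + 1)) := Fin.subsingleton_iff_le_one.2 (by omega)
    ext u v
    simp only [Matrix.sub_apply, Matrix.mul_apply, Matrix.zero_apply, Subsingleton.elim v u]
    rw [← Finset.sum_sub_distrib]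
    exact Finset.sum_eq_zero fun w _ => by simp only [Subsingleton.elim w u]; ring
  simp [opS, this]

theorem opT_zero (q : ℕ × ℕ) (h : q.2 = 0) (i : Fin 3) : opT q i = 0 := by
  have : gen q.2 i = 0 := by
    rw [← gen_bracket]
    have : Subsingleton (Fin (q.2 + 1)) := Fin.subsingleton_iff_le_one.2 (by omega)
    ext u v
    simp only [Matrix.sub_apply, Matrix.mul_apply, Matrix.zero_apply, Subsingleton.elim v u]
    rw [← Finset.sum_sub_distrib]
    exact Finset.sum_eq_zero fun w _ => by simp only [Subsingleton.elim w u]; ring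
  simp [opT, this]

theorem diagBlk_const (q : ℕ × ℕ) (c : ℝ) : diagBlk q (fun _ => c) = (c : ℂ) • 1 :=
  blk_ext fun x => by rw [diagBlk_mulVec, Matrix.smul_mulVec, Matrix.one_mulVec]

theorem diagBlk_triv {q : ℕ × ℕ} (hq : q.1 = 0 ∨ q.2 = 0) (f : ℕ → ℝ) :
    diagBlk q f = (f (q.1 + q.2) : ℂ) • 1 := by
  rw [← diagBlk_const]
  refine blk_ext fun x => ?_
  rw [diagBlk_mulVec, diagBlk_mulVec]
  have h1 : (x.1.1 : ℕ) < q.1 + q.2 + 1 := x.1.1.isLt
  obtain ⟨h2, h3, -⟩ := x.1.2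
  rw [show (x.1.1 : ℕ) = q.1 + q.2 by omega]

theorem bump_continuous : Continuous bump := by
  have h : ContDiff ℝ 1 fun x : ℝ => Real.smoothTransition (2 * x - 1 / 2) :=
    Real.smoothTransition.contDiff.comp ((contDiff_const.mul contDiff_id).sub contDiff_const)
  exact h.continuous_deriv le_rfl

theorem bump_contDiff : ContDiff ℝ 1 bump := by
  have h : ContDiff ℝ 2 fun x : ℝ => Real.smoothTransition (2 * x - 1 / 2) :=
    Real.smoothTransition.contDiff.comp ((contDiff_const.mul contDiff_id).sub contDiff_const)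
  exact h.deriv' (n := 1)

theorem bump_supp (s : ℝ) (hs : s ∉ Ioo (0 : ℝ) 1) : bump s = 0 := by
  refine Sched.bump_eq_zero ?_
  rw [Set.mem_Ioo, not_and_or, not_lt, not_lt] at hs
  rcases hs with h | h
  · exact Or.inl (by linarith)
  · exact Or.inr (by linarith)

theorem bump_integral : ∫ s in (0 : ℝ)..1, bump s = 1 := by
  have h : ContDiff ℝ 1 fun x : ℝ => Real.smoothTransition (2 * x - 1 / 2) :=
    Real.smoothTransition.contDiff.comp ((contDiff_const.mul contDiff_id).sub contDiff_const)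
  unfold bump
  rw [intervalIntegral.integral_deriv_eq_sub (fun x _ => (h.differentiable one_ne_zero) x)
      ((h.continuous_deriv le_rfl).intervalIntegrable _ _),
    Real.smoothTransition.one_of_one_le (by norm_num),
    Real.smoothTransition.zero_of_nonpos (by norm_num)]
  norm_num

theorem bump_bounded : ∃ C : ℝ, 0 ≤ C ∧ ∀ s, |bump s| ≤ C := by
  obtain ⟨C, hC⟩ := (isCompact_Icc (a := (0 : ℝ)) (b := 1)).exists_bound_of_continuousOn
    bump_continuous.continuousOn
  refine ⟨max C 0, le_max_right _ _, fun s => ?_⟩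
  by_cases hs : s ∈ Icc (0 : ℝ) 1
  · exact (Real.norm_eq_abs _ ▸ hC s hs).trans (le_max_left _ _)
  · rw [bump_supp s fun h => hs (Ioo_subset_Icc_self h), abs_zero]
    exact le_max_right _ _

theorem stageTheta_mid (σ : StagePlan) {s : ℝ} (h1 : 3 / 4 ≤ s) (h2 : s ≤ σ.len + 1) :
    stageTheta σ s = 0 := by
  have : (0 : ℝ) ≤ σ.wait := Nat.cast_nonneg _
  rw [stageTheta, Real.smoothTransition.one_of_one_le (by linarith),
    Real.smoothTransition.zero_of_nonpos (by linarith)]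
  ring

theorem stageCtrl_zero (σ : StagePlan) (p : ℕ → ℝ) {s : ℝ} (h : s ≤ 1 ∨ (σ.len : ℝ) + 1 ≤ s) :
    stageCtrl σ p s = 0 := by
  refine Finset.sum_eq_zero fun k _ => ?_
  rw [bump_supp, mul_zero, zero_smul]
  have h0 : (0 : ℝ) ≤ ((k : ℕ) : ℝ) := Nat.cast_nonneg _
  have h1 : ((k : ℕ) : ℝ) + 1 ≤ σ.len := by exact_mod_cast k.2
  rintro ⟨h2, h3⟩
  rcases h with h | h <;> linarith

/-- At every time at most one letter is on. -/
theorem stageCtrl_single (σ : StagePlan) (p : ℕ → ℝ) (s : ℝ) {B M : ℝ} (hB : ∀ k, |p k| ≤ B)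
    (hM : ∀ u, |bump u| ≤ M) :
    ∃ (y : ℝ) (ik : Fin 3 × Fin 3), stageCtrl σ p s = y • ctrlDir ik ∧ |y| ≤ B * M := by
  have hB0 : 0 ≤ B := (abs_nonneg _).trans (hB 0)
  have hM0 : 0 ≤ M := (abs_nonneg _).trans (hM 0)
  by_cases h : ∃ k : Fin σ.len, bump (s - (k + 1)) ≠ 0
  · obtain ⟨k, hk⟩ := h
    refine ⟨p k * bump (s - (k + 1)), σ.letter k, Finset.sum_eq_single k (fun j _ hj => ?_) (by simp),
      by rw [abs_mul]; exact mul_le_mul (hB _) (hM _) (abs_nonneg _) hB0⟩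
    rw [bump_supp, mul_zero, zero_smul]
    have hk' : s - (k + 1) ∈ Ioo (0 : ℝ) 1 := by
      by_contra h'
      exact hk (bump_supp _ h')
    intro hj'
    simp only [Set.mem_Ioo] at hk' hj'
    refine hj (Fin.ext ?_)
    have a1 : ((j : ℕ) : ℝ) < (k : ℕ) + 1 := by linarith
    have a2 : ((k : ℕ) : ℝ) < (j : ℕ) + 1 := by linarith
    norm_cast at a1 a2
    omega
  · push Not at h
    refine ⟨0, (0, 0), ?_, by simpa using mul_nonneg hB0 hM0⟩
    rw [zero_smul]
    exact Finset.sum_eq_zero fun k _ => by rw [h k, mul_zero, zero_smul]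

theorem det_one_add_ctrlDir (x : ℝ) (ik : Fin 3 × Fin 3) :
    (1 + x • ctrlDir ik : LinkMat).det = 1 - x ^ 2 := by
  obtain ⟨i, k⟩ := ik
  let A : Matrix (Bool × Fin 3) (Fin 2) ℝ := Matrix.of fun a e =>
    if (e = 0 ∧ a = (false, i)) ∨ (e = 1 ∧ a = (true, k)) then x else 0
  let B : Matrix (Fin 2) (Bool × Fin 3) ℝ := Matrix.of fun e a =>
    if (e = 0 ∧ a = (true, k)) ∨ (e = 1 ∧ a = (false, i)) then 1 else 0
  have e1 : x • ctrlDir (i, k) = A * B := by
    ext ⟨u, a⟩ ⟨v, b⟩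
    cases u <;> cases v <;> simp [A, B, ctrlDir, Matrix.mul_apply, ite_and] <;> split_ifs <;> rfl
  have e2 : B * A = !![0, x; x, 0] := by
    ext e f
    fin_cases e <;> fin_cases f <;>
      simp [A, B, Matrix.mul_apply]
  rw [e1, Matrix.det_one_add_mul_comm, e2, Matrix.det_fin_two]
  simp
  ring

theorem adQ_product (G : Fin 3) (P : ℝ) :
    SU2.adQ G (linePar P 0 G) = (Real.sqrt 3 * P) • (1 : LinkMat) := by
  ext ⟨u, a⟩ ⟨v, b⟩
  have h1 : G + 1 ≠ G := by omega
  have h2 : G + 2 ≠ G := by omega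
  by_cases hab : a = b <;> cases u <;> cases v <;>
    simp [SU2.adQ, linePar, h1, h2, hab]

/-- The link operator of a stage is a multiple of the free one plus the control. -/
theorem linkOp_stageQ (σ : StagePlan) (ε P : ℝ) (p : ℕ → ℝ) (s : ℝ) (q : ℕ × ℕ) :
    ∃ c : ℝ, linkOp (stageQ σ ε P p s) q =
      (c : ℂ) • (linkOp (SU2.adQ σ.gauge (linePar P (stageTheta σ s) σ.gauge)) q +
        (-2 * Real.sqrt 3 * P * ε) •
          ∑ k : Fin σ.len, (p k * bump (s - (k + 1))) •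
            (opS q (σ.letter k).1 * opT q (σ.letter k).2)) := by
  refine ⟨_, (linkOp_smul _ _ _).trans (congrArg _ ?_)⟩
  rw [linkOp_add, linkOp_smul, stageCtrl, linkOp_sum]
  refine congrArg _ ?_
  simp only [linkOp_smul, linkOp_ctrlDir, ← Complex.coe_smul, Finset.smul_sum, smul_smul]
  refine Finset.sum_congr rfl fun k _ => ?_
  congr 1
  push_cast
  ring

/-- Second order expansion at the product point. -/
theorem stage_coef (σ : StagePlan) {ε P B M : ℝ} {p : ℕ → ℝ} {s : ℝ} (q : ℕ × ℕ)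
    (hθ : stageTheta σ s = 0) (hP0 : 0 < P) (hP : P ≤ 27 / 4) (hε : 0 ≤ ε) (hε1 : ε ≤ 1)
    (hB : ∀ k, |p k| ≤ B) (hM : ∀ u, |bump u| ≤ M) (hsmall : ε * (B * M) ≤ 1 / 2) :
    ‖linkOp (stageQ σ ε P p s) q - linkOp (SU2.adQ σ.gauge (linePar P 0 σ.gauge)) q -
        ε • ctrlProfile bump (fun k => opS q (σ.letter k).1 * opT q (σ.letter k).2)
          (fun k : Fin σ.len => -(2 * Real.sqrt 3 * (27 / 4) * p k)) (s - 1)‖ ≤
      2 * (B * M) ^ 2 * ε ^ 2 *
          (2 * (27 / 4) * |cas q.1 + cas q.2| + 2 * 2 * (27 / 4) * (B * M) *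
            ∑ k, ‖opS q (σ.letter k).1 * opT q (σ.letter k).2‖) +
        ε * (27 / 4 - P) * (4 * (B * M) *
            ∑ k, ‖opS q (σ.letter k).1 * opT q (σ.letter k).2‖) := by
  set G := σ.gauge
  set K := Real.sqrt 3 * P with hK
  have hs3 : Real.sqrt 3 ≤ 2 := (Real.sqrt_le_left (by norm_num)).2 (by norm_num)
  have hs0 : 0 < Real.sqrt 3 := by positivity
  have hK0 : 0 < K := mul_pos hs0 hP0
  have hB0 : 0 ≤ B := (abs_nonneg _).trans (hB 0)
  have hM0 : 0 ≤ M := (abs_nonneg _).trans (hM 0)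
  set Bk := fun k => opS q (σ.letter k).1 * opT q (σ.letter k).2
  set L := ctrlProfile bump Bk (fun k : Fin σ.len => -(2 * Real.sqrt 3 * (27 / 4) * p k)) (s - 1)
    with hL
  set A0 := linkOp (SU2.adQ G (linePar P 0 G)) q with hA0
  -- the scalar factor
  obtain ⟨y, ik, hy, hyb⟩ := stageCtrl_single σ p s hB hM
  set z := ε * y with hz
  have hzb : |z| ≤ ε * (B * M) := by
    rw [hz, abs_mul, abs_of_nonneg hε]; exact mul_le_mul_of_nonneg_left hyb hε
  have hz2 : z ^ 2 ≤ (ε * (B * M)) ^ 2 := sq_le_sq' (abs_le.1 hzb).1 (abs_le.1 hzb).2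
  have hz4 : z ^ 2 ≤ 1 / 4 := hz2.trans (by nlinarith [mul_nonneg hε (mul_nonneg hB0 hM0)])
  set c := ((1 - z ^ 2)⁻¹) ^ (1 / 6 : ℝ) with hc
  have hc1 : 0 ≤ c - 1 ∧ c - 1 ≤ 2 * z ^ 2 := by
    have h1 : 1 ≤ (1 - z ^ 2)⁻¹ := (one_le_inv₀ (by linarith)).2 (by nlinarith [sq_nonneg z])
    have h2 : (1 - z ^ 2)⁻¹ ≤ 1 + 2 * z ^ 2 := by
      rw [inv_le_iff_one_le_mul₀ (by linarith)]; nlinarith [sq_nonneg z]
    refine ⟨sub_nonneg.2 (Real.one_le_rpow h1 (by norm_num)), ?_⟩
    have h3 := Real.rpow_le_rpow_of_exponent_le h1 (show (1 / 6 : ℝ) ≤ 1 by norm_num)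
    rw [Real.rpow_one] at h3
    linarith
  have hQ : stageQ σ ε P p s = c • (SU2.adQ G (linePar P 0 G) + (K * ε) • stageCtrl σ p s) := by
    simp only [stageQ, hθ]
    congr 1
    have e : SU2.adQ G (linePar P 0 G) + (K * ε) • stageCtrl σ p s =
        K • (1 + z • ctrlDir ik) := by
      rw [adQ_product, hy, smul_add, smul_smul, smul_smul, hz]
      simp only [K]; ring_nf
    rw [e, adQ_product, Matrix.det_smul, Matrix.det_smul, Matrix.det_one, mul_one,
      det_one_add_ctrlDir, hc]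
    congr 1
    rw [← hK, div_mul_eq_div_div, div_self (pow_ne_zero _ hK0.ne'), one_div]
  have hA : linkOp (stageQ σ ε P p s) q = c • (A0 + (P / (27 / 4) * ε) • L) := by
    rw [hQ, linkOp_smul, linkOp_add, linkOp_smul, stageCtrl, linkOp_sum, Complex.coe_smul, ← hA0]
    congr 2
    simp only [hL, ctrlProfile, Bk, linkOp_smul, linkOp_ctrlDir, ← Complex.coe_smul,
      Finset.smul_sum, smul_smul]
    refine Finset.sum_congr rfl fun k _ => ?_
    rw [show s - 1 - ((k : ℕ) : ℝ) = s - ((k : ℕ) + 1) by ring]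
    congr 1
    simp only [K]
    push_cast
    ring
  have hA0n : ‖A0‖ ≤ 2 * (27 / 4) * |cas q.1 + cas q.2| := by
    rw [hA0, adQ_product, linkOp_smul, linkOp_one, norm_smul, norm_smul, norm_one, mul_one,
      Complex.norm_real, Complex.norm_real, Real.norm_eq_abs, Real.norm_eq_abs, abs_of_pos hK0]
    exact mul_le_mul_of_nonneg_right (mul_le_mul hs3 hP hP0.le zero_le_two) (abs_nonneg _)
  have hS0 : 0 ≤ ∑ k, ‖Bk k‖ := Finset.sum_nonneg fun _ _ => norm_nonneg _
  have hLn : ‖L‖ ≤ 2 * 2 * (27 / 4) * (B * M) * ∑ k, ‖Bk k‖ := by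
    rw [Finset.mul_sum]
    refine (norm_sum_le _ _).trans (Finset.sum_le_sum fun k _ => ?_)
    rw [norm_smul, Real.norm_eq_abs, abs_mul, abs_neg, abs_mul, abs_of_nonneg
      (show (0 : ℝ) ≤ 2 * Real.sqrt 3 * (27 / 4) by positivity)]
    refine mul_le_mul_of_nonneg_right ?_ (norm_nonneg _)
    calc 2 * Real.sqrt 3 * (27 / 4) * |p k| * |bump (s - 1 - k)|
        ≤ 2 * 2 * (27 / 4) * B * M :=
          mul_le_mul (mul_le_mul (by nlinarith) (hB _) (abs_nonneg _) (by norm_num)) (hM _)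
            (abs_nonneg _) (by positivity)
      _ = _ := by ring
  rw [hA, show c • (A0 + (P / (27 / 4) * ε) • L) - A0 - ε • L =
    (c - 1) • (A0 + (P / (27 / 4) * ε) • L) + (ε * (P / (27 / 4) - 1)) • L by module]
  refine (norm_add_le _ _).trans (add_le_add ?_ ?_)
  · rw [norm_smul, Real.norm_eq_abs, abs_of_nonneg hc1.1]
    have hr : 0 ≤ P / (27 / 4) * ε ∧ P / (27 / 4) * ε ≤ 1 :=
      ⟨by positivity, mul_le_one₀ ((div_le_one (by norm_num)).2 hP) hε hε1⟩
    refine mul_le_mul (hc1.2.trans (by rw [mul_pow] at hz2; nlinarith [hz2])) ?_ (norm_nonneg _)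
      (by positivity)
    refine (norm_add_le _ _).trans (add_le_add hA0n ?_)
    rw [norm_smul, Real.norm_eq_abs, abs_of_nonneg hr.1]
    exact (mul_le_of_le_one_left (norm_nonneg _) hr.2).trans hLn
  · rw [norm_smul, Real.norm_eq_abs, abs_mul, abs_of_nonneg hε, abs_of_nonpos
      (sub_nonpos.2 ((div_le_one (by norm_num)).2 hP))]
    calc ε * -(P / (27 / 4) - 1) * ‖L‖
        ≤ ε * -(P / (27 / 4) - 1) * (2 * 2 * (27 / 4) * (B * M) * ∑ k, ‖Bk k‖) :=
          mul_le_mul_of_nonneg_left hLn (mul_nonneg hε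
            (neg_nonneg.2 (sub_nonpos.2 ((div_le_one (by norm_num)).2 hP))))
      _ = _ := by ring

/-- On a trivial block the link operator of a stage is scalar. -/
theorem linkOp_stageQ_triv (σ : StagePlan) (ε P : ℝ) (p : ℕ → ℝ) (s : ℝ) {q : ℕ × ℕ}
    (hq : q.1 = 0 ∨ q.2 = 0) : ∃ μ : ℝ, linkOp (stageQ σ ε P p s) q = (μ : ℂ) • 1 := by
  obtain ⟨c, hc⟩ := linkOp_stageQ σ ε P p s q
  rw [hc, Finset.sum_eq_zero fun k _ => ?_, smul_zero, add_zero, linkOp_adQ_diagBlk,
    diagBlk_triv hq, smul_smul, ← Complex.ofReal_mul]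
  · exact ⟨_, rfl⟩
  · rcases hq with h | h
    · rw [opS_zero q h, zero_mul, smul_zero]
    · rw [opT_zero q h, mul_zero, smul_zero]

end Vale.Agent.P225.StageNear
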