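import Vale.Agent.P225.System.Free

/-!
P225, module F (helper file): late in the path the scale and the damping are near their limits,
uniformly in the path.
-/

noncomputable section

namespace Vale.Agent.P225.StageNear

open Real Filter Set
open scoped Topology

variable {d : PathData} {r₂ β φ₀ : ℝ}

/-- How far the frozen data are from the limit after the start `j`. -/
def drift (j : ℕ) : ℝ := 12 * (j : ℝ) ^ (-(1 / 5) : ℝ)

theorem tendsto_drift : Tendsto drift atTop (𝓝 0) := by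
  have h := ((tendsto_rpow_neg_atTop (y := 1 / 5) (by norm_num)).comp
    tendsto_natCast_atTop_atTop).const_mul (12 : ℝ)
  rw [mul_zero] at h
  exact h

/-- The scale is explicit after the start. -/
theorem log_scale (hd : d.Good r₂ β φ₀) {t : ℝ} (ht : (d.j₀ : ℝ) ^ 6 - 1 ≤ t) :
    Real.log (27 / 4) = Real.log (d.scale t) + 5 / 3 * φ₀ * (1 + t) ^ (-(1 / 5) : ℝ) := by
  have hj : (1 : ℝ) ≤ (d.j₀ : ℝ) ^ 6 := one_le_pow₀ (by exact_mod_cast hd.j₀_pos)
  set F := fun u => Real.log (d.scale u) + 5 / 3 * φ₀ * (1 + u) ^ (-(1 / 5) : ℝ)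
  have hF : ∀ u, t ≤ u → HasDerivAt F 0 u := fun u hu => by
    have hu0 : 0 < 1 + u := by linarith
    have h1 : HasDerivAt d.scale (deriv d.scale u) u :=
      ((hd.scale_smooth.differentiable (by simp)) u).hasDerivAt
    refine ((h1.log (hd.scale_pos u).ne').add
      ((((hasDerivAt_id u).const_add 1).rpow_const (p := (-(1 / 5) : ℝ))
        (Or.inl hu0.ne')).const_mul (5 / 3 * φ₀))).congr_deriv ?_
    rw [hd.scale_deriv u (ht.trans hu), show (-(1 / 5) - 1 : ℝ) = -(6 / 5) by norm_num]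
    simp only [id_eq]
    field_simp [(hd.scale_pos u).ne']
    ring
  have hconst : ∀ u, t ≤ u → F u = F t := fun u hu =>
    constant_of_has_deriv_right_zero (fun v hv => (hF v hv.1).continuousAt.continuousWithinAt)
      (fun v hv => (hF v hv.1).hasDerivWithinAt) u ⟨hu, le_rfl⟩
  have h0 : Tendsto (fun u : ℝ => (1 + u) ^ (-(1 / 5) : ℝ)) atTop (𝓝 0) :=
    (tendsto_rpow_neg_atTop (y := 1 / 5) (by norm_num)).comp
      (tendsto_atTop_add_const_left _ 1 tendsto_id)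
  have hlim : Tendsto F atTop (𝓝 (Real.log (27 / 4) + 5 / 3 * φ₀ * 0)) :=
    (hd.scale_lim.log (by norm_num)).add (h0.const_mul _)
  rw [mul_zero, add_zero] at hlim
  exact tendsto_nhds_unique hlim
    (tendsto_const_nhds.congr' (eventually_atTop.2 ⟨t, fun u hu => (hconst u hu).symm⟩))

theorem pow_le_drift {j : ℕ} (hj : 1 ≤ j) {x : ℝ} (hx : (j : ℝ) ^ 6 ≤ x) :
    (j : ℝ) * x ^ (-(1 / 5) : ℝ) ≤ (j : ℝ) ^ (-(1 / 5) : ℝ) := by
  have h1 : (1 : ℝ) ≤ j := by exact_mod_cast hj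
  have h2 := rpow_le_rpow_of_nonpos (pow_pos (by linarith) 6) hx
    (show (-(1 / 5) : ℝ) ≤ 0 by norm_num)
  refine (mul_le_mul_of_nonneg_left h2 (by linarith)).trans_eq ?_
  rw [← rpow_natCast, ← rpow_mul (by linarith)]
  conv_lhs => arg 1; rw [← rpow_one (j : ℝ)]
  rw [← rpow_add (by linarith)]
  norm_num

/-- The drift of the scale and of the damping. -/
theorem late_near (hd : d.Good r₂ β φ₀) {t : ℝ} (ht : (d.j₀ : ℝ) ^ 6 ≤ t) :
    0 ≤ 27 / 4 - d.scale t ∧ 27 / 4 - d.scale t ≤ drift d.j₀ ∧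
      |pathDamp d t - 5| ≤ drift d.j₀ := by
  have hj : (1 : ℝ) ≤ (d.j₀ : ℝ) ^ 6 := one_le_pow₀ (by exact_mod_cast hd.j₀_pos)
  have ht' : (d.j₀ : ℝ) ^ 6 - 1 ≤ t := by linarith
  have hJ := pow_le_drift hd.j₀_pos (ht.trans (le_add_of_nonneg_left zero_le_one) : _ ≤ 1 + t)
  have hP := hd.scale_pos t
  refine ⟨by linarith [(hd.scale_mem t ht').2], ?_, ?_⟩
  · set X := 5 / 3 * φ₀ * (1 + t) ^ (-(1 / 5) : ℝ) with hX
    have hX1 : X ≤ 5 / 3 * (d.j₀ : ℝ) ^ (-(1 / 5) : ℝ) := by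
      rw [hX, mul_assoc]
      refine mul_le_mul_of_nonneg_left (le_trans ?_ hJ) (by norm_num)
      exact mul_le_mul_of_nonneg_right hd.φ₀_le (rpow_nonneg (by linarith) _)
    have e : d.scale t = 27 / 4 * Real.exp (-X) := by
      rw [← Real.exp_log hP, show Real.log (d.scale t) = Real.log (27 / 4) + -X by
        linarith [log_scale hd ht'], Real.exp_add, Real.exp_log (by norm_num)]
    have := Real.add_one_le_exp (-X)
    have : (0 : ℝ) ≤ (d.j₀ : ℝ) ^ (-(1 / 5) : ℝ) := rpow_nonneg (Nat.cast_nonneg _) _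
    unfold drift
    rw [e]
    linarith
  · obtain ⟨-, -, hν, -⟩ := baseCoef_spec hd
    have h0 : 0 ≤ φ₀ * (1 + t) ^ (-(6 / 5) : ℝ) :=
      mul_nonneg hd.φ₀_pos.le (rpow_nonneg (by linarith) _)
    rw [hν t ht', pathNu, hd.scale_deriv t ht',
      show (5 : ℝ) - 3 * (d.scale t * (φ₀ * (1 + t) ^ (-(6 / 5) : ℝ)) / 3) / d.scale t - 5 =
        -(φ₀ * (1 + t) ^ (-(6 / 5) : ℝ)) by field_simp; ring, abs_neg, abs_of_nonneg h0]
    refine (mul_le_mul hd.φ₀_le (rpow_le_rpow_of_exponent_le (by linarith)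
      (show (-(6 / 5) : ℝ) ≤ -(1 / 5) by norm_num)) (rpow_nonneg (by linarith) _)
      (Nat.cast_nonneg _)).trans (hJ.trans ?_)
    have : (0 : ℝ) ≤ (d.j₀ : ℝ) ^ (-(1 / 5) : ℝ) := rpow_nonneg (Nat.cast_nonneg _) _
    unfold drift
    linarith

theorem speed_le_drift (hd : d.Good r₂ β φ₀) (i : ℕ) :
    speed (d.j₀ + i) ≤ drift d.j₀ := by
  have h1 : (1 : ℝ) ≤ d.j₀ := by exact_mod_cast hd.j₀_pos
  have h2 : (d.j₀ : ℝ) ≤ ((d.j₀ + i : ℕ) : ℝ) := by exact_mod_cast Nat.le_add_right _ i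
  have h3 : ((d.j₀ : ℝ) ^ 4)⁻¹ = (d.j₀ : ℝ) ^ (-4 : ℝ) := by
    rw [rpow_neg (by linarith)]; norm_num
  calc speed (d.j₀ + i) ≤ ((d.j₀ : ℝ) ^ 4)⁻¹ := by
        unfold speed; exact inv_anti₀ (by positivity) (pow_le_pow_left₀ (by linarith) h2 4)
    _ ≤ (d.j₀ : ℝ) ^ (-(1 / 5) : ℝ) := h3 ▸ rpow_le_rpow_of_exponent_le h1 (by norm_num)
    _ ≤ _ := by
        have : (0 : ℝ) ≤ (d.j₀ : ℝ) ^ (-(1 / 5) : ℝ) := rpow_nonneg (by linarith) _
        unfold drift; linarith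

end Vale.Agent.P225.StageNear
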