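import Vale.Agent.P225.System.StageExact.Cont
import Vale.Agent.P225.System.StageExact.Near.Drift
import Vale.Agent.P225.System.StageExact.Near.Coef

/-!
P225, module F (helper file): the reference of a block of a stage and the free diagonal solution.
-/

noncomputable section

namespace Vale.Agent.P225.StageNear

open Matrix SU2 Set
open scoped ComplexOrder Matrix.Norms.L2Operator

variable {d : PathData} {r₂ β φ₀ : ℝ}

theorem gaugeTriple_apply (G : Fin 3) (q : ℕ × ℕ) (v : ℕ) :
    gaugeTriple G q v G = v ∧ gaugeTriple G q v (G + 1) = q.1 ∧ gaugeTriple G q v (G + 2) = q.2 := by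
  fin_cases G <;> simp [gaugeTriple]

theorem diagBlkFun_eq (G : Fin 3) (f : Lbl → ℝ) (q : ℕ × ℕ) :
    diagBlkFun G f q = diagBlk q fun v => f (gaugeTriple G q v) := rfl

theorem gaugeTriple_ok (G : Fin 3) (q : ℕ × ℕ) (x : BlkIdx q) :
    LblOK (gaugeTriple G q (x.1.1 : ℕ)) := by
  have h := blkTriple_ok q x
  rw [lblOK_iff _ 0] at h
  obtain ⟨h1, h2, h3⟩ := gaugeTriple_apply G q (x.1.1 : ℕ)
  rw [lblOK_iff _ G, h1, h2, h3]
  simpa only [blkTriple, show (0 : Fin 3) + 1 = 1 from rfl, show (0 : Fin 3) + 2 = 2 from rfl,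
    Matrix.cons_val_zero, Matrix.cons_val_one, Matrix.cons_val] using h

theorem gaugeTriple_ne (G : Fin 3) {q : ℕ × ℕ} (hq : q ≠ (0, 0)) (v : ℕ) :
    gaugeTriple G q v ≠ 0 := fun h => hq (Prod.ext
  ((gaugeTriple_apply G q v).2.1.symm.trans (congrFun h (G + 1)))
  ((gaugeTriple_apply G q v).2.2.symm.trans (congrFun h (G + 2))))

theorem bandBlocks_ne {G : Fin 3} {q : ℕ × ℕ} (hq : q ∈ bandBlocks G) : q ≠ (0, 0) := by
  unfold bandBlocks at hq
  obtain ⟨t, ht, rfl⟩ := Finset.mem_image.1 hq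
  have hb : InBand t := by
    rw [band, Finset.mem_filter] at ht
    exact ht.2
  intro h
  obtain ⟨h1, h2⟩ := Prod.mk.inj h
  obtain ⟨-, h0, -, -⟩ := (lblOK_iff t G).1 hb.1
  refine hb.2.2 (funext fun k => ?_)
  rcases fin3_cases G k with rfl | rfl | rfl <;> simp only [Pi.zero_apply] <;> omega

theorem diagBlk_sub_const (q : ℕ × ℕ) (f : ℕ → ℝ) (c : ℝ) :
    diagBlk q f - (c : ℂ) • 1 = diagBlk q fun v => f v - c := by
  rw [← diagBlk_const]
  simp only [diagBlk, ← Finset.sum_sub_distrib, ← sub_smul, Complex.ofReal_sub]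

/-- The cost of passing from values to the norm. -/
def diagCost (q : ℕ × ℕ) : ℝ := ∑ x : BlkIdx q, ‖unitMat q x x‖

theorem diagCost_nonneg (q : ℕ × ℕ) : 0 ≤ diagCost q := Finset.sum_nonneg fun _ _ => norm_nonneg _

theorem diagBlk_norm_le (q : ℕ × ℕ) {f : ℕ → ℝ} {M : ℝ}
    (h : ∀ x : BlkIdx q, |f (x.1.1 : ℕ)| ≤ M) : ‖diagBlk q f‖ ≤ M * diagCost q := by
  rw [diagBlk, diagCost, Finset.mul_sum]
  refine (norm_sum_le _ _).trans (Finset.sum_le_sum fun x _ => ?_)
  rw [norm_smul, Complex.norm_real, Real.norm_eq_abs]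
  exact mul_le_mul_of_nonneg_right (h x) (norm_nonneg _)

theorem diagBlk_hasDerivAt (q : ℕ × ℕ) {f : ℝ → ℕ → ℝ} {f' : ℕ → ℝ} {t : ℝ}
    (h : ∀ x : BlkIdx q, HasDerivAt (fun u => f u (x.1.1 : ℕ)) (f' (x.1.1 : ℕ)) t) :
    HasDerivAt (fun u => diagBlk q (f u)) (diagBlk q f') t :=
  HasDerivAt.fun_sum fun x _ => (h x).ofReal_comp.smul_const _

theorem slow_ge {ε st t u : ℝ} (hε : 0 < ε) (ht : st + u / ε ≤ t) : u ≤ ε * (t - st) := by
  have h := (div_le_iff₀ hε).1 (show u / ε ≤ t - st by linarith)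
  linarith

theorem slow_le {ε st t u : ℝ} (hε : 0 < ε) (ht : t ≤ st + u / ε) : ε * (t - st) ≤ u := by
  have h := (le_div_iff₀ hε).1 (show t - st ≤ u / ε by linarith)
  linarith

/-- The times of a stage. -/
theorem stage_times (hd : d.Good r₂ β φ₀) (i : ℕ) {l : ℕ} (hl : l < (d.plan (d.j₀ + i)).length) :
    0 < speed (d.j₀ + i) ∧ speed (d.j₀ + i) ≤ 1 ∧ (d.j₀ : ℝ) ^ 6 ≤ stageStart d i l ∧
      stageStart d i l ≤ ctrlStart d i l ∧
      ctrlStart d i l + ((d.plan (d.j₀ + i))[l].len : ℝ) / speed (d.j₀ + i) ≤ segEnd d i l ∧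
      startTime r₂ ≤ stageStart d i l := by
  obtain ⟨hε, hε1⟩ := Free.speed_le_one hd i
  have hst := Free.clusterStart_le hd (i := i) (l := l)
  refine ⟨hε, hε1, hst, le_add_of_nonneg_right (by positivity), ?_, ?_⟩
  · have h2 : stageStart d i (l + 1) ≤ segEnd d i l := by
      unfold segEnd
      split_ifs
      · exact le_rfl
      · linarith [Sched.stage_le_clusterStart_succ hd.j₀_pos i (l + 1)]
    rw [Free.stageStart_succ hl] at h2
    refine le_trans ?_ h2
    rw [ctrlStart, add_assoc, ← add_div]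
    gcongr
    simp only [StagePlan.dur]
    have : (0 : ℝ) ≤ (d.plan (d.j₀ + i))[l].wait + (d.plan (d.j₀ + i))[l].dwell := by positivity
    linarith
  · have := hd.pre_late
    unfold startTime
    linarith

/-- On the segment the control-free path is the line of the stage. -/
theorem basePar_seg (hd : d.Good r₂ β φ₀) (i : ℕ) {l : ℕ} (hl : l < (d.plan (d.j₀ + i)).length)
    {t : ℝ} (ht : t ∈ Icc (stageStart d i l) (segEnd d i l)) :
    basePar d t = linePar (d.scale t)
      (stageTheta ((d.plan (d.j₀ + i))[l]) (speed (d.j₀ + i) * (t - stageStart d i l)))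
      ((d.plan (d.j₀ + i))[l]).gauge := by
  rcases lt_or_ge t (stageStart d i (l + 1)) with h | h
  · exact Free.basePar_stage hd hl ⟨ht.1, h⟩
  · rw [Free.stageStart_succ hl] at h
    have h1 : stageTheta ((d.plan (d.j₀ + i))[l])
        (speed (d.j₀ + i) * (t - stageStart d i l)) = 1 :=
      Free.stageTheta_end _ (by linarith [slow_ge (Free.speed_le_one hd i).1 h])
    refine Free.basePar_of_eq ?_
    rw [StageCont.pathQ_seg hd i hl ht, Free.stageQ_zero _ _ _ _ (hd.scale_pos t).ne', h1,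
      Free.linePar_one]
    rfl

theorem stageQ_free (σ : StagePlan) (ε : ℝ) {P : ℝ} (hP : 0 < P) (p : ℕ → ℝ) {s : ℝ}
    (h : stageCtrl σ p s = 0) :
    stageQ σ ε P p s = SU2.adQ σ.gauge (linePar P (stageTheta σ s) σ.gauge) := by
  rw [← Free.stageQ_zero σ ε P s hP.ne']
  simp only [stageQ, h, show stageCtrl σ (fun _ => 0) s = 0 by simp [stageCtrl]]

variable (d r₂ β)

/-- The free solution of a block. -/
def freeV (G : Fin 3) (q : ℕ × ℕ) (t : ℝ) : BlkMat q :=
  diagBlkFun G (fun l => freeRate d r₂ β l t) q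

/-- Its backward map. -/
def freeR (G : Fin 3) (q : ℕ × ℕ) (a t : ℝ) : BlkMat q :=
  diagBlkFun G (fun l => Real.exp (-freeDecay d r₂ β a t l)) q

/-- The free coefficient of a block. -/
def freeA (G : Fin 3) (q : ℕ × ℕ) (t : ℝ) : BlkMat q :=
  linkOp (SU2.adQ G (basePar d t)) q

variable {d r₂ β}

theorem freeA_eq (G : Fin 3) (q : ℕ × ℕ) (t : ℝ) :
    freeA d G q t = diagBlk q fun v => baseCoef d (gaugeTriple G q v) t := by
  rw [freeA, linkOp_adQ_diagBlk]
  congr 1
  funext v
  obtain ⟨h1, h2, h3⟩ := gaugeTriple_apply G q v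
  rw [baseCoef, fin3_sum G, h1, h2, h3]
  ring

theorem freeV_pos (hd : d.Good r₂ β φ₀) (G : Fin 3) (q : ℕ × ℕ) {t : ℝ}
    (ht : startTime r₂ ≤ t) : (freeV d r₂ β G q t).PosSemidef :=
  diagBlk_posSemidef (p := q) (f := fun v => freeRate d r₂ β (gaugeTriple G q v) t) fun _ =>
    freeRate_nonneg hd _ ht

theorem freeV_ricc (hd : d.Good r₂ β φ₀) (G : Fin 3) (q : ℕ × ℕ) {a b : ℝ}
    (ha : startTime r₂ ≤ a) :
    IsRiccati (freeA d G q) (pathDamp d) (freeV d r₂ β G q) a b := by
  intro t ht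
  show HasDerivAt (fun u => diagBlk q fun v => freeRate d r₂ β (gaugeTriple G q v) u)
    (freeA d G q t - freeV d r₂ β G q t * freeV d r₂ β G q t - pathDamp d t • freeV d r₂ β G q t) t
  refine (diagBlk_hasDerivAt q (f := fun u v => freeRate d r₂ β (gaugeTriple G q v) u)
    (f' := fun v => baseCoef d (gaugeTriple G q v) t -
      freeRate d r₂ β (gaugeTriple G q v) t ^ 2 -
      pathDamp d t * freeRate d r₂ β (gaugeTriple G q v) t)
    fun x => (freeRate_spec hd _).2 t (ha.trans ht.1)).congr_deriv ?_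
  rw [freeA_eq, freeV, diagBlkFun_eq, diagBlk_mul]
  simp only [diagBlk, Finset.smul_sum, ← Finset.sum_sub_distrib, ← Complex.coe_smul (pathDamp d t),
    smul_smul, ← sub_smul]
  refine Finset.sum_congr rfl fun x _ => ?_
  congr 1
  push_cast
  ring

theorem freeR_back (hd : d.Good r₂ β φ₀) (G : Fin 3) (q : ℕ × ℕ) {a b : ℝ}
    (ha : startTime r₂ < a) :
    IsBack (freeV d r₂ β G q) (freeR d r₂ β G q a) a b := by
  refine ⟨?_, fun t ht => ?_⟩
  · rw [freeR, diagBlkFun_eq]
    simp only [freeDecay, intervalIntegral.integral_same, neg_zero, Real.exp_zero]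
    rw [diagBlk_const, Complex.ofReal_one, one_smul]
  · have hI : ∀ l, HasDerivAt (fun u => freeDecay d r₂ β a u l) (freeRate d r₂ β l t) t := by
      intro l
      have hc : ContinuousOn (freeRate d r₂ β l) (Ioi (startTime r₂)) := fun u hu =>
        ((freeRate_spec hd l).2 u (le_of_lt hu)).continuousAt.continuousWithinAt
      have hat : t ∈ Ioi (startTime r₂) := ha.trans_le ht.1
      exact intervalIntegral.integral_hasDerivAt_right
        ((hc.mono fun u hu => by
          rw [Set.uIcc_of_le ht.1] at hu; exact ha.trans_le hu.1).intervalIntegrable)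
        (hc.stronglyMeasurableAtFilter isOpen_Ioi t hat)
        ((freeRate_spec hd l).2 t hat.le).continuousAt
    refine (diagBlk_hasDerivAt q
      (f := fun u v => Real.exp (-freeDecay d r₂ β a u (gaugeTriple G q v)))
      (f' := fun v => Real.exp (-freeDecay d r₂ β a t (gaugeTriple G q v)) *
        -freeRate d r₂ β (gaugeTriple G q v) t)
      fun x => (hI _).fun_neg.exp).congr_deriv ?_
    rw [freeR, freeV, diagBlkFun_eq, diagBlkFun_eq, diagBlk_mul]
    simp only [diagBlk, ← Finset.sum_neg_distrib, ← neg_smul]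
    refine Finset.sum_congr rfl fun x _ => ?_
    congr 1
    push_cast
    ring

theorem freeR_inv (G : Fin 3) (q : ℕ × ℕ) (a t : ℝ) :
    (freeR d r₂ β G q a t)⁻¹ = diagBlkFun G (fun l => Real.exp (freeDecay d r₂ β a t l)) q := by
  refine Matrix.inv_eq_right_inv ?_
  rw [freeR, diagBlkFun_eq, diagBlkFun_eq, diagBlk_mul]
  simp only [← Real.exp_add, neg_add_cancel, Real.exp_zero]
  rw [diagBlk_const, Complex.ofReal_one, one_smul]

/-- At the product point the free rates of a block are close to the frozen one, and to each other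
up to an exponentially small error. -/
theorem free_near (hd : d.Good r₂ β φ₀) (i : ℕ) {l : ℕ} (hl : l < (d.plan (d.j₀ + i)).length)
    {C : ℝ} (hC : 0 ≤ C) (hrate : ∀ (t : ℝ), (d.j₀ : ℝ) ^ 6 ≤ t → ∀ v : Lbl, LblOK v → v ≠ 0 →
      freeRate d r₂ β v t ≤ C * Real.sqrt (casSum v)) {q : ℕ × ℕ} (hq : q ≠ (0, 0)) :
    let σ := (d.plan (d.j₀ + i))[l]
    let c := ctrlStart d i l + (σ.len : ℝ) / speed (d.j₀ + i)
    let Kq := C * Real.sqrt (3 * (cas q.1 + cas q.2))
    (∀ t ∈ Icc (ctrlStart d i l) c, ‖freeV d r₂ β σ.gauge q t - (prodRate q : ℂ) • (1 : BlkMat q)‖ ≤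
        drift d.j₀ * ((Kq + prodRate q + (1 + 2 * (cas q.1 + cas q.2)) * (1 + prodRate q)) *
          diagCost q)) ∧
      ∫ t in ctrlStart d i l..c, ‖freeV d r₂ β σ.gauge q t -
          (freeRate d r₂ β (gaugeTriple σ.gauge q (q.1 + q.2)) t : ℂ) • (1 : BlkMat q)‖ ≤
        drift d.j₀ * (Kq * diagCost q) := by
  intro σ c Kq
  set G := σ.gauge
  set ε := speed (d.j₀ + i)
  set η := drift d.j₀
  set a := ctrlStart d i l with ha
  set st := stageStart d i l
  set s₀ := st + (3 / 4) / ε with hs₀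
  set cc := cas q.1 + cas q.2 with hcc
  have hcc0 : 0 ≤ cc := add_nonneg (cas_nonneg' _) (cas_nonneg' _)
  set a₀ := Real.sqrt 3 * (27 / 4) * cc with ha₀
  have ha0 : 0 ≤ a₀ := by positivity
  obtain ⟨hε, hε1, hst, -, hcb, hstart⟩ := stage_times hd i hl
  change 0 < ε at hε
  have hεη : ε ≤ η := speed_le_drift hd i
  have hη : 0 < η := hε.trans_le hεη
  have hs₀st : st ≤ s₀ := le_add_of_nonneg_right (by positivity)
  have hs₀late : (d.j₀ : ℝ) ^ 6 ≤ s₀ := hst.trans hs₀st
  have has₀ : s₀ + (1 / 4) / ε = a := by rw [ha, hs₀, ctrlStart, add_assoc, ← add_div]; norm_num [st, ε]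
  have hgap : 0 ≤ (1 / 4) / ε := by positivity
  have hac : a ≤ c := le_add_of_nonneg_right (by positivity)
  have hθ : ∀ u ∈ Icc s₀ c, ∀ v, |baseCoef d (gaugeTriple G q v) u - a₀| ≤ (1 + 2 * cc) * η ∧
      |pathDamp d u - 5| ≤ (1 + 2 * cc) * η := by
    intro u hu v
    have hu0 : (d.j₀ : ℝ) ^ 6 ≤ u := hs₀late.trans hu.1
    obtain ⟨n1, n2, n3⟩ := late_near hd hu0
    have hP : basePar d u = linePar (d.scale u) 0 G := by
      rw [basePar_seg hd i hl ⟨hs₀st.trans hu.1, hu.2.trans hcb⟩, stageTheta_mid _ (slow_ge hε hu.1)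
        (slow_le hε (hu.2.trans_eq ?_))]
      simp only [c, ctrlStart, σ]
      rw [add_assoc, ← add_div, add_comm (1 : ℝ)]
    obtain ⟨h1, h2, h3⟩ := gaugeTriple_apply G q v
    have e : baseCoef d (gaugeTriple G q v) u - a₀ =
        -(Real.sqrt 3 * cc * (27 / 4 - d.scale u)) := by
      rw [baseCoef, fin3_sum G, hP, h1, h2, h3, ha₀, hcc]
      simp [linePar, show G + 1 ≠ G by omega, show G + 2 ≠ G by omega]
      ring
    refine ⟨?_, n3.trans (le_mul_of_one_le_left hη.le (by linarith))⟩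
    rw [e, abs_neg, abs_of_nonneg (by positivity)]
    have hs3 : Real.sqrt 3 ≤ 2 := (Real.sqrt_le_left (by norm_num)).2 (by norm_num)
    calc Real.sqrt 3 * cc * (27 / 4 - d.scale u) ≤ 2 * cc * η := by gcongr
      _ ≤ _ := by nlinarith
  have hK : ∀ x : BlkIdx q, ∀ u, (d.j₀ : ℝ) ^ 6 ≤ u →
      0 ≤ freeRate d r₂ β (gaugeTriple G q (x.1.1 : ℕ)) u ∧
        freeRate d r₂ β (gaugeTriple G q (x.1.1 : ℕ)) u ≤ Kq := fun x u hu => by
    refine ⟨freeRate_nonneg hd _ (by have := hd.pre_late; unfold startTime; linarith),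
      (hrate u hu _ (gaugeTriple_ok G q x) (gaugeTriple_ne G hq _)).trans ?_⟩
    refine mul_le_mul_of_nonneg_left (Real.sqrt_le_sqrt ?_) hC
    have := casSum_le_two (gaugeTriple_ok G q x) G
    rwa [(gaugeTriple_apply G q _).2.1, (gaugeTriple_apply G q _).2.2] at this
  have hroot : 0 ≤ rootRate a₀ := by
    rw [rootRate]
    linarith [Real.le_sqrt_of_sq_le (show (5 : ℝ) ^ 2 ≤ 25 + 4 * a₀ by linarith)]
  have hexp : ∀ t, a ≤ t → Real.exp (-(49 / 10) * (t - s₀)) ≤ ε := by
    intro t ht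
    have h1 : (1 / 4) / ε ≤ t - s₀ := by linarith
    have h2 := Real.add_one_le_exp (49 / 10 * (t - s₀))
    have h3 : 1 / ε ≤ Real.exp (49 / 10 * (t - s₀)) := by
      have : 49 / 10 * ((1 / 4) / ε) = 49 / 40 * (1 / ε) := by ring
      nlinarith [mul_le_mul_of_nonneg_left h1 (show (0 : ℝ) ≤ 49 / 10 by norm_num),
        show 0 ≤ 1 / ε by positivity]
    rw [show -(49 / 10) * (t - s₀) = -(49 / 10 * (t - s₀)) by ring, Real.exp_neg,
      inv_le_comm₀ (Real.exp_pos _) hε, ← one_div]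
    exact h3
  refine ⟨fun t ht => ?_, ?_⟩
  · rw [freeV, diagBlkFun_eq, diagBlk_sub_const, ← mul_assoc]
    refine diagBlk_norm_le q fun x => ?_
    rw [prodRate, ← hcc, ← ha₀]
    refine (freeRate_near hd _ (s := s₀) (by linarith) (by linarith [ht.1]) ha0
      fun u hu => hθ u ⟨hu.1, hu.2.trans ht.2⟩ _).trans ?_
    obtain ⟨k0, k1⟩ := hK x s₀ hs₀late
    have hΔ : |freeRate d r₂ β (gaugeTriple G q (x.1.1 : ℕ)) s₀ - rootRate a₀| ≤
        Kq + rootRate a₀ := abs_le.2 ⟨by linarith, by linarith⟩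
    have h2 : (1 + 2 * cc) * η * (1 + rootRate a₀) / (49 / 10) ≤
        (1 + 2 * cc) * η * (1 + rootRate a₀) := div_le_self (by positivity) (by norm_num)
    nlinarith [mul_le_mul ((hexp t ht.1).trans hεη) hΔ (abs_nonneg _) hη.le]
  · set top := gaugeTriple G q (q.1 + q.2)
    have htop : ∀ u, (d.j₀ : ℝ) ^ 6 ≤ u →
        0 ≤ freeRate d r₂ β top u ∧ freeRate d r₂ β top u ≤ Kq := fun u hu =>
      hK ⟨⟨⟨q.1 + q.2, Nat.lt_succ_self _⟩, by simp only; exact ⟨by omega, by omega,
        by exact ⟨q.1 + q.2, by omega⟩⟩⟩, 0⟩ u hu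
    have hKq : 0 ≤ Kq := by positivity
    have hpt : ∀ t ∈ Icc a c, ‖freeV d r₂ β G q t - (freeRate d r₂ β top t : ℂ) • (1 : BlkMat q)‖ ≤
        Real.exp (-(49 / 10) * (t - s₀)) * Kq * diagCost q := by
      intro t ht
      rw [freeV, diagBlkFun_eq, diagBlk_sub_const]
      refine diagBlk_norm_le q fun x => ?_
      set w := freeRate d r₂ β (gaugeTriple G q (x.1.1 : ℕ))
      set w' := freeRate d r₂ β top
      have hlate : ∀ u ∈ Icc s₀ c, (d.j₀ : ℝ) ^ 6 ≤ u := fun u hu => hs₀late.trans hu.1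
      have hcoef : ∀ u ∈ Icc s₀ c,
          baseCoef d (gaugeTriple G q (x.1.1 : ℕ)) u = baseCoef d top u := by
        intro u hu
        have hP : basePar d u G = 0 := by
          rw [basePar_seg hd i hl ⟨hs₀st.trans hu.1, hu.2.trans hcb⟩,
            stageTheta_mid _ (slow_ge hε hu.1) (slow_le hε (hu.2.trans_eq ?_))]
          · simp [linePar, G, σ]
          simp only [c, ctrlStart, σ]
          rw [add_assoc, ← add_div, add_comm (1 : ℝ)]
        obtain ⟨h1, h2, h3⟩ := gaugeTriple_apply G q (x.1.1 : ℕ)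
        obtain ⟨g1, g2, g3⟩ := gaugeTriple_apply G q (q.1 + q.2)
        simp only [baseCoef, fin3_sum G, hP, h2, h3, top, g2, g3, zero_mul]
      have hst0 : ∀ u ∈ Icc s₀ c, startTime r₂ ≤ u := fun u hu => hstart.trans (hs₀st.trans hu.1)
      have h := Free.decay (f := fun u => w u - w' u) (F := fun _ => 0)
        (D := fun u => w u + w' u + pathDamp d u) (a := s₀) (b := c) (M := 0) (l := 49 / 10)
        (by norm_num) (fun u hu => ?_) (fun u hu => ?_) (fun u hu => by simp)
        t ⟨by linarith [ht.1], ht.2⟩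
      · rw [zero_div, add_zero] at h
        refine h.trans (mul_le_mul_of_nonneg_left ?_ (Real.exp_nonneg _))
        obtain ⟨k0, k1⟩ := hK x s₀ hs₀late
        obtain ⟨l0, l1⟩ := htop s₀ hs₀late
        exact abs_le.2 ⟨by linarith, by linarith⟩
      · refine (((freeRate_spec hd _).2 u (hst0 u hu)).sub
          ((freeRate_spec hd top).2 u (hst0 u hu))).congr_deriv ?_
        rw [hcoef u hu]
        ring
      · obtain ⟨-, -, hν, -⟩ := baseCoef_spec hd
        have hu' := hlate u hu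
        obtain ⟨hν1, -⟩ := hd.nu_mem u (by linarith)
        rw [hν u (by linarith)]
        linarith [(hK x u hu').1, (htop u hu').1]
    have hF : ∀ t, HasDerivAt (fun u => -(10 / 49) * Real.exp (-(49 / 10) * (u - s₀)))
        (Real.exp (-(49 / 10) * (t - s₀))) t := fun t => by
      refine ((((hasDerivAt_id t).sub_const s₀).const_mul (-(49 / 10))).exp.const_mul
        (-(10 / 49))).congr_deriv ?_
      simp only [id_eq]
      ring
    have hcont : ContinuousOn (fun t => ‖freeV d r₂ β G q t -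
        (freeRate d r₂ β top t : ℂ) • (1 : BlkMat q)‖) (Icc a c) := by
      have hst : ∀ t ∈ Icc a c, startTime r₂ ≤ t := fun t ht => by linarith [ht.1]
      refine (ContinuousOn.sub (fun t ht =>
        (freeV_ricc hd G q (b := c) (le_refl (startTime r₂)) t ⟨hst t ht, ht.2⟩).continuousAt.continuousWithinAt)
        ((Complex.continuous_ofReal.comp_continuousOn fun t ht =>
          ((freeRate_spec hd top).2 t (hst t ht)).continuousAt.continuousWithinAt).smul
            continuousOn_const)).norm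
    have hec : Continuous fun t : ℝ => Real.exp (-(49 / 10) * (t - s₀)) := by fun_prop
    refine (intervalIntegral.integral_mono_on
      (g := fun t => Real.exp (-(49 / 10) * (t - s₀)) * Kq * diagCost q) hac
      (hcont.intervalIntegrable_of_Icc hac)
      (((hec.mul continuous_const).mul continuous_const).intervalIntegrable _ _) hpt).trans ?_
    rw [intervalIntegral.integral_mul_const, intervalIntegral.integral_mul_const,
      intervalIntegral.integral_eq_sub_of_hasDerivAt (fun t _ => hF t)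
        (hec.intervalIntegrable _ _), mul_assoc]
    refine mul_le_mul_of_nonneg_right ?_ (mul_nonneg hKq (diagCost_nonneg q))
    have := Real.exp_pos (-(49 / 10) * (c - s₀))
    have := Real.exp_pos (-(49 / 10) * (a - s₀))
    linarith [(hexp a le_rfl).trans hεη]

end Vale.Agent.P225.StageNear
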